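import Vale.Agent.Lib.P052.Assemble

/-- Borsuk's conjecture fails in dimension 63: some bounded set of positive diameter in
Euclidean 63-space is not a union of 64 subsets of strictly smaller diameter. -/
theorem Vale.Agent.Results.P052.A_dim63.result :
    ∃ Y : Set (EuclideanSpace ℝ (Fin 63)), Bornology.IsBounded Y ∧ 0 < Metric.diam Y ∧
      ¬ ∃ P : Fin 64 → Set (EuclideanSpace ℝ (Fin 63)),
        (⋃ i, P i) = Y ∧ ∀ i, Metric.diam (P i) < Metric.diam Y :=
  Vale.Agent.Lib.P052.dim63
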